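import Vale.Agent.P207.H391.QV.Sep

/-!
P207, all dimensions (line N4), row BETA (step 8): from the four point function `β v (z, u)`
(`z` the affine coordinate in the stable leaf, `u` the affine coordinate in the unstable leaf) to the
tensor `P`: the holonomy is `K⁻¹ ∂_z β`, its `z`-derivative at `0` is exactly quadratic in `u`, and
the quadratic tensor is parallel along the stable leaves.
-/

set_option maxSynthPendingDepth 3

open Set Filter Topology Metric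
open scoped ContDiff

noncomputable section

namespace Vale.Agent.P207.H267.QV

/-- The four point function in the affine coordinates. -/
structure BetaD (V E E' : Type*) [NormedAddCommGroup E] [NormedSpace ℝ E]
    [NormedAddCommGroup E'] [NormedSpace ℝ E'] extends Cocycle V E E' where
  ψ_surj : Function.Surjective ψ
  β : V → E' × E → ℝ
  M : ℕ → ℝ
  smooth : ∀ v, ContDiffOn ℝ ∞ (β v) (ball 0 r)
  bound : ∀ v k, ∀ p ∈ ball (0 : E' × E) r, ‖iteratedFDeriv ℝ k (β v) p‖ ≤ M k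
  zero_left : ∀ v u, ‖u‖ < r → β v (0, u) = 0
  zero_right : ∀ v z, ‖z‖ < r → β v (z, 0) = 0
  equi : ∀ v z u, ‖z‖ < r → ‖u‖ < r → ‖(L' v).symm z‖ < r →
    β v (z, u) = β (ψ v) ((L' v).symm z, (L v).symm u)
  /-- the mixed derivative -/
  K : V → E ≃L[ℝ] (E' →L[ℝ] ℝ)
  K_eq : ∀ v, fderiv ℝ (fun u => fderiv ℝ (fun z => β v (z, u)) 0) 0 = (K v : E →L[ℝ] E' →L[ℝ] ℝ)
  M0 : ℝ
  K_symm_le : ∀ v, ‖((K v).symm : (E' →L[ℝ] ℝ) →L[ℝ] E)‖ ≤ M0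

/-- The base change along the stable leaf: `mv v z` is the frame `hol ξ v`, where `z` is the affine
coordinate of `ξ`; `g v z` is the holonomy from the affine chart of `v` to the one of `mv v z`. -/
structure BaseD (V E E' : Type*) [NormedAddCommGroup E] [NormedSpace ℝ E]
    [NormedAddCommGroup E'] [NormedSpace ℝ E'] extends BetaD V E E' where
  ρ : ℝ
  ρ_pos : 0 < ρ
  ρ_le : ρ ≤ r
  k0 : ℝ
  mv : V → E' → V
  κ : V → E' → E ≃L[ℝ] E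
  κ' : V → E' → E' ≃L[ℝ] E'
  κ_le : ∀ v z, ‖z‖ < ρ → ‖(κ v z : E →L[ℝ] E)‖ ≤ k0
  κ_symm_le : ∀ v z, ‖z‖ < ρ → ‖((κ v z).symm : E →L[ℝ] E)‖ ≤ k0
  κ'_le : ∀ v z, ‖z‖ < ρ → ‖(κ' v z : E' →L[ℝ] E')‖ ≤ k0
  g : V → E' → E → E
  g_zero : ∀ v z, ‖z‖ < ρ → g v z 0 = 0
  g_deriv : ∀ v z, ‖z‖ < ρ → HasFDerivAt (g v z) (κ v z : E →L[ℝ] E) 0
  g_lt : ∀ v z u, ‖z‖ < ρ → ‖u‖ < ρ → ‖g v z u‖ < r
  base : ∀ v z₁, ‖z₁‖ < ρ → ∀ᶠ z in 𝓝 z₁, ∀ u, ‖u‖ < ρ →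
    β (mv v z₁) (κ' v z₁ (z - z₁), g v z₁ u) = β v (z, u) - β v (z₁, u)
  flow_mv : ∀ v z, ‖z‖ < ρ → ψ (mv v (L' v z)) = mv (ψ v) z
  flow_κ : ∀ v z, ‖z‖ < ρ → ∀ u, L (mv v (L' v z)) (κ (ψ v) z u) = κ v (L' v z) (L v u)
  flow_κ' : ∀ v z, ‖z‖ < ρ → ∀ α, L' (mv v (L' v z)) (κ' (ψ v) z α) = κ' v (L' v z) (L' v α)
  /-- the holonomy commutes with the flow, on the whole leaf -/
  flow_g : ∀ v u, ∀ᶠ z in 𝓝 (0 : E'), (κ v z).symm (g v z u) =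
    L v ((κ (ψ v) ((L' v).symm z)).symm (g (ψ v) ((L' v).symm z) ((L v).symm u)))

namespace BetaD

variable {V E E' : Type*} [NormedAddCommGroup E] [NormedSpace ℝ E]
  [NormedAddCommGroup E'] [NormedSpace ℝ E'] (D : BetaD V E E')

/-- restriction of a covector to the first factor -/
def pl : (E' × E →L[ℝ] ℝ) →L[ℝ] (E' →L[ℝ] ℝ) :=
  (ContinuousLinearMap.compL ℝ E' (E' × E) ℝ).flip (ContinuousLinearMap.inl ℝ E' E)

/-- restriction to the second factor -/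
def pr {W : Type*} [NormedAddCommGroup W] [NormedSpace ℝ W] : (E' × E →L[ℝ] W) →L[ℝ] (E →L[ℝ] W) :=
  (ContinuousLinearMap.compL ℝ E (E' × E) W).flip (ContinuousLinearMap.inr ℝ E' E)

@[simp] theorem pl_apply (A : E' × E →L[ℝ] ℝ) (z : E') : pl (E := E) A z = A (z, 0) := rfl

@[simp] theorem pr_apply {W : Type*} [NormedAddCommGroup W] [NormedSpace ℝ W]
    (A : E' × E →L[ℝ] W) (u : E) : pr (E' := E') A u = A (0, u) := rfl

/-- the `z`-derivative -/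
def Ph (v : V) (p : E' × E) : E' →L[ℝ] ℝ := pl (fderiv ℝ (D.β v) p)

/-- the `u`-derivative -/
def Ps (v : V) (p : E' × E) : E →L[ℝ] ℝ := pr (fderiv ℝ (D.β v) p)

/-- the mixed derivative -/
def D1 (v : V) (p : E' × E) : E →L[ℝ] E' →L[ℝ] ℝ := pr (fderiv ℝ (D.Ph v) p)

/-- the derivative of the holonomy -/
def cc (v : V) (p : E' × E) : E →L[ℝ] E := ((D.K v).symm : (E' →L[ℝ] ℝ) →L[ℝ] E) ∘L D.D1 v p

def C (v : V) (u : E) (z : E') : E →L[ℝ] E := D.cc v (z, u)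

theorem mem_iff {p : E' × E} {r : ℝ} : p ∈ ball (0 : E' × E) r ↔ ‖p.1‖ < r ∧ ‖p.2‖ < r := by
  rw [mem_ball_zero_iff, Prod.norm_def, max_lt_iff]

theorem at_smooth {v : V} {p : E' × E} (hp : p ∈ ball (0 : E' × E) D.r) :
    ContDiffAt ℝ ∞ (D.β v) p := (D.smooth v).contDiffAt (isOpen_ball.mem_nhds hp)

theorem Ph_smooth (v : V) : ContDiffOn ℝ ∞ (D.Ph v) (ball 0 D.r) :=
  pl.contDiff.comp_contDiffOn ((D.smooth v).fderiv_of_isOpen isOpen_ball (by simp))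

theorem Ps_smooth (v : V) : ContDiffOn ℝ ∞ (D.Ps v) (ball 0 D.r) :=
  (pr (E := E) (E' := E') (W := ℝ)).contDiff.comp_contDiffOn
    ((D.smooth v).fderiv_of_isOpen isOpen_ball (by simp))

theorem D1_smooth (v : V) : ContDiffOn ℝ ∞ (D.D1 v) (ball 0 D.r) :=
  (pr (E := E) (E' := E') (W := E' →L[ℝ] ℝ)).contDiff.comp_contDiffOn
    ((D.Ph_smooth v).fderiv_of_isOpen isOpen_ball (by simp))

theorem cc_smooth (v : V) : ContDiffOn ℝ ∞ (D.cc v) (ball 0 D.r) :=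
  (ContinuousLinearMap.compL ℝ E (E' →L[ℝ] ℝ) E
    ((D.K v).symm : (E' →L[ℝ] ℝ) →L[ℝ] E)).contDiff.comp_contDiffOn (D.D1_smooth v)

/-- the constants -/
def A (k : ℕ) : ℝ := D.M0 * (‖pr (E := E) (E' := E') (W := E' →L[ℝ] ℝ)‖ *
  (‖pl (E := E) (E' := E')‖ * D.M (k + 2)))

theorem M0_nonneg (v : V) : 0 ≤ D.M0 := (norm_nonneg _).trans (D.K_symm_le v)

theorem Ph_bound {v : V} (k : ℕ) {p : E' × E} (hp : p ∈ ball (0 : E' × E) D.r) :
    ‖iteratedFDeriv ℝ k (D.Ph v) p‖ ≤ ‖pl (E := E) (E' := E')‖ * D.M (k + 1) := by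
  have h1 : ContDiffAt ℝ ∞ (fderiv ℝ (D.β v)) p :=
    ((D.smooth v).fderiv_of_isOpen isOpen_ball (by simp)).contDiffAt (isOpen_ball.mem_nhds hp)
  have h2 := norm_iter_comp_left (pl (E := E) (E' := E')) h1 k
  have h3 : ‖iteratedFDeriv ℝ k (fderiv ℝ (D.β v)) p‖ ≤ D.M (k + 1) := by
    rw [norm_iteratedFDeriv_fderiv]; exact D.bound v (k + 1) p hp
  exact h2.trans (mul_le_mul_of_nonneg_left h3 (norm_nonneg _))

theorem Ps_bound {v : V} (k : ℕ) {p : E' × E} (hp : p ∈ ball (0 : E' × E) D.r) :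
    ‖iteratedFDeriv ℝ k (D.Ps v) p‖ ≤ ‖pr (E := E) (E' := E') (W := ℝ)‖ * D.M (k + 1) := by
  have h1 : ContDiffAt ℝ ∞ (fderiv ℝ (D.β v)) p :=
    ((D.smooth v).fderiv_of_isOpen isOpen_ball (by simp)).contDiffAt (isOpen_ball.mem_nhds hp)
  have h2 := norm_iter_comp_left (pr (E := E) (E' := E') (W := ℝ)) h1 k
  have h3 : ‖iteratedFDeriv ℝ k (fderiv ℝ (D.β v)) p‖ ≤ D.M (k + 1) := by
    rw [norm_iteratedFDeriv_fderiv]; exact D.bound v (k + 1) p hp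
  exact h2.trans (mul_le_mul_of_nonneg_left h3 (norm_nonneg _))

theorem cc_bound {v : V} (k : ℕ) {p : E' × E} (hp : p ∈ ball (0 : E' × E) D.r) :
    ‖iteratedFDeriv ℝ k (D.cc v) p‖ ≤ D.A k := by
  have h1 : ContDiffAt ℝ ∞ (fderiv ℝ (D.Ph v)) p :=
    ((D.Ph_smooth v).fderiv_of_isOpen isOpen_ball (by simp)).contDiffAt (isOpen_ball.mem_nhds hp)
  have h2 : ContDiffAt ℝ ∞ (D.D1 v) p := (D.D1_smooth v).contDiffAt (isOpen_ball.mem_nhds hp)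
  set T := ContinuousLinearMap.compL ℝ E (E' →L[ℝ] ℝ) E
    ((D.K v).symm : (E' →L[ℝ] ℝ) →L[ℝ] E) with hT
  have hTn : ‖T‖ ≤ D.M0 := by
    refine ContinuousLinearMap.opNorm_le_bound _ (D.M0_nonneg v) fun S => ?_
    refine (ContinuousLinearMap.opNorm_comp_le _ _).trans ?_
    exact mul_le_mul_of_nonneg_right (D.K_symm_le v) (norm_nonneg _)
  have h3 := norm_iter_comp_left T h2 k
  have h4 := norm_iter_comp_left (pr (E := E) (E' := E') (W := E' →L[ℝ] ℝ)) h1 k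
  have h5 : ‖iteratedFDeriv ℝ k (fderiv ℝ (D.Ph v)) p‖ ≤
      ‖pl (E := E) (E' := E')‖ * D.M (k + 2) := by
    rw [norm_iteratedFDeriv_fderiv]; exact D.Ph_bound (k + 1) hp
  have h6 : ‖iteratedFDeriv ℝ k (D.D1 v) p‖ ≤ ‖pr (E := E) (E' := E') (W := E' →L[ℝ] ℝ)‖ *
      (‖pl (E := E) (E' := E')‖ * D.M (k + 2)) :=
    h4.trans (mul_le_mul_of_nonneg_left h5 (norm_nonneg _))
  exact h3.trans (mul_le_mul hTn h6 (norm_nonneg _) (D.M0_nonneg v))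

end BetaD

end Vale.Agent.P207.H267.QV
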